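import Crest.Agent.X37.Lev.Pot
import Crest.Agent.X37.PT.Inv
import Crest.Agent.X37.Inner.Defs

/-!
# Row 37, leverage balancing: the algorithm

The state is the list of the edges whose weight was lowered so far.
-/

set_option autoImplicit false

open Matrix Finset

namespace Crest.Agent.X37.Lev

open Crest.Agent.Lib.PT Crest.Agent.X37.IO Crest.Agent.X37.Inner Crest.Agent.X37.PT

/-- entry `i` of the incidence vector of the pair `e` -/
def inc (e : ℕ × ℕ) (i : ℕ) : ℚ := (if i = e.1 then 1 else 0) - (if i = e.2 then 1 else 0)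

/-- the weighted Laplacian of the marked edges, grounded at the vertex `0` -/
def lapF (es : List (ℕ × ℕ)) (F : List Bool) (w : List ℚ) (i j : ℕ) : ℚ :=
  (if i = 0 then 1 else 0) * (if j = 0 then 1 else 0) + ∑ e ∈ range es.length,
    if F.getD e false = true then
      vent w e * (inc (es.getD e (0, 0)) i * inc (es.getD e (0, 0)) j) else 0

/-- the resistance of a pair, read from the table of the inverse -/
def resT (G : List (List ℚ)) (e : ℕ × ℕ) : ℚ :=
  ent G e.1 e.1 - ent G e.1 e.2 - (ent G e.2 e.1 - ent G e.2 e.2)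

/-- the weights after the history `hist` -/
def wts (m : ℕ) (ρ : ℚ) (hist : List ℕ) : List ℚ := vtab m fun e => ρ ^ hist.count e

/-- the first marked edge of large leverage (the number of edges if there is none) -/
noncomputable def viol (n : ℕ) (lam : ℚ) (es : List (ℕ × ℕ)) (F : List Bool) (w : List ℚ) : ℕ :=
  (List.range es.length).findIdx fun e => F.getD e false &&
    decide (lam < vent w e * resT (invL n (tab n n (lapF es F w))) (es.getD e (0, 0)))

/-- one step -/
noncomputable def step (n : ℕ) (ρ lam : ℚ) (es : List (ℕ × ℕ)) (F : List Bool) (hist : List ℕ) :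
    List ℕ :=
  if viol n lam es F (wts es.length ρ hist) < es.length then
    viol n lam es F (wts es.length ρ hist) :: hist else hist

/-- the number of steps -/
def nsteps (n a m : ℕ) : ℕ := m * (n * (n + m)) * (a * a)

/-- **Balanced weights** on the marked edges. -/
noncomputable def levWM (n a : ℕ) (lam : ℚ) (es : List (ℕ × ℕ)) (F : List Bool) : List ℚ :=
  wts es.length (1 - (a : ℚ)⁻¹) ((step n (1 - (a : ℚ)⁻¹) lam es F)^[nsteps n a es.length] [])

/-- **Balanced weights** on all edges. -/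
noncomputable def levW (n a : ℕ) (lam : ℚ) (es : List (ℕ × ℕ)) : List ℚ :=
  levWM n a lam es (List.replicate es.length true)

/-! ### Polynomial time -/

section pt

universe u

variable {α : Type u} [Enc α]

@[fun_prop] theorem inc_pt {e : α → ℕ × ℕ} {i : α → ℕ} (he : PT e) (hi : PT i) :
    PT fun x => inc (e x) (i x) := by unfold inc; fun_prop

@[fun_prop] theorem lapF_pt {es : α → List (ℕ × ℕ)} {F : α → List Bool} {w : α → List ℚ}
    {i j : α → ℕ} (hes : PT es) (hF : PT F) (hw : PT w) (hi : PT i) (hj : PT j) :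
    PT fun x => lapF (es x) (F x) (w x) (i x) (j x) := by
  unfold lapF
  refine PT.rat_add (by fun_prop) ?_
  exact PT.sum_range (by fun_prop) (by fun_prop) (by fun_prop) (by fun_prop)

@[fun_prop] theorem resT_pt {G : α → List (List ℚ)} {e : α → ℕ × ℕ} (hG : PT G) (he : PT e) :
    PT fun x => resT (G x) (e x) := by unfold resT; fun_prop

@[fun_prop] theorem wts_pt {m : α → ℕ} {ρ : α → ℚ} {hist : α → List ℕ} (hm : PT m) (hb : PB m)
    (hρ : PT ρ) (hh : PT hist) : PT fun x => wts (m x) (ρ x) (hist x) := by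
  unfold wts
  refine vtab_pt hm hb (PT.rat_pow (by fun_prop) (by fun_prop) ?_)
  exact PB.count (l := fun p : α × ℕ => hist p.1) (by fun_prop) _

@[fun_prop] theorem viol_pt {n : α → ℕ} {lam : α → ℚ} {es : α → List (ℕ × ℕ)} {F : α → List Bool}
    {w : α → List ℚ} (hn : PT n) (hb : PB n) (hl : PT lam) (hes : PT es) (hF : PT F) (hw : PT w) :
    PT fun x => viol (n x) (lam x) (es x) (F x) (w x) := by
  unfold viol
  have hG : PT fun x => invL (n x) (tab (n x) (n x) (lapF (es x) (F x) (w x))) :=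
    invL_pt hn hb (tab_pt hn hb hn hb (by fun_prop))
  have hG' : PT fun p : α × ℕ =>
      invL (n p.1) (tab (n p.1) (n p.1) (lapF (es p.1) (F p.1) (w p.1))) := hG.comp PT.id.fst
  refine PT.findIdx (by fun_prop) (PT.band (by fun_prop) (PT.decide (PT.rat_lt (by fun_prop)
    (PT.rat_mul (by fun_prop) (resT_pt hG' (by fun_prop))))))

theorem viol_le (n : ℕ) (lam : ℚ) (es : List (ℕ × ℕ)) (F : List Bool) (w : List ℚ) :
    viol n lam es F w ≤ es.length := by
  simpa [viol] using List.findIdx_le_length (xs := List.range es.length)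

@[fun_prop] theorem step_pt {n : α → ℕ} {ρ lam : α → ℚ} {es : α → List (ℕ × ℕ)}
    {F : α → List Bool} {hist : α → List ℕ} (hn : PT n) (hb : PB n) (hρ : PT ρ) (hl : PT lam)
    (hes : PT es) (hF : PT F) (hh : PT hist) :
    PT fun x => step (n x) (ρ x) (lam x) (es x) (F x) (hist x) := by
  unfold step
  have hv : PT fun x => viol (n x) (lam x) (es x) (F x) (wts (es x).length (ρ x) (hist x)) :=
    viol_pt hn hb hl hes hF (wts_pt hes.length (PB.length hes) hρ hh)
  exact PT.ite (hv.nat_lt hes.length) (hv.cons hh) hh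

@[fun_prop] theorem levWM_pt {n a : α → ℕ} {lam : α → ℚ} {es : α → List (ℕ × ℕ)}
    {F : α → List Bool} (hn : PT n) (hb : PB n) (ha : PT a) (hab : PB a) (hl : PT lam)
    (hes : PT es) (hF : PT F) : PT fun x => levWM (n x) (a x) (lam x) (es x) (F x) := by
  unfold levWM
  have hρ : PT fun x => 1 - (a x : ℚ)⁻¹ := by fun_prop
  refine wts_pt hes.length (PB.length hes) hρ ?_
  refine PT.iterate_grow (f := fun x => step (n x) (1 - (a x : ℚ)⁻¹) (lam x) (es x) (F x))
    (by unfold nsteps; fun_prop) (by unfold nsteps; fun_prop) (PT.const _)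
    (step_pt (hn.comp PT.id.fst) (hb.comp PT.id.fst) (hρ.comp PT.id.fst) (hl.comp PT.id.fst)
      (hes.comp PT.id.fst) (hF.comp PT.id.fst) PT.id.snd)
    (G := fun x => 4 * (es x).length + 2) (by fun_prop) fun x c => ?_
  unfold step
  split_ifs with h
  · have := sz_nat_le_self (viol (n x) (lam x) (es x) (F x)
      (wts (es x).length (1 - (a x : ℚ)⁻¹) c))
    rw [sz_cons]; omega
  · omega

@[fun_prop] theorem levW_pt {n a : α → ℕ} {lam : α → ℚ} {es : α → List (ℕ × ℕ)}
    (hn : PT n) (hb : PB n) (ha : PT a) (hab : PB a) (hl : PT lam) (hes : PT es) :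
    PT fun x => levW (n x) (a x) (lam x) (es x) :=
  levWM_pt hn hb ha hab hl hes (by fun_prop)

end pt

/-! ### Correctness -/

variable {n : ℕ} {es : List (ℕ × ℕ)}

theorem getD_eq (h : Loopless n es) (e : Fin es.length) :
    es.getD e (0, 0) = ((srcF h e : ℕ), (tgtF h e : ℕ)) := by
  simp [srcF, tgtF]

theorem cast_inc (u v i : Fin n) : ((inc ((u : ℕ), (v : ℕ)) i : ℚ) : ℝ) = bv u v i := by
  simp only [inc, bv, Pi.sub_apply, Pi.single_apply, Fin.ext_iff]
  split_ifs <;> simp

theorem lap_eq (h : Loopless n es) (hn : 0 < n) (F : List Bool) (w : List ℚ) (i j : Fin n) :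
    lap (srcF h) (tgtF h) ⟨0, hn⟩ (fun e => (vent w e : ℝ)) (maskF es.length F) i j =
      ((lapF es F w i j : ℚ) : ℝ) := by
  simp only [lap, lapF, Matrix.add_apply, Matrix.sum_apply, vecMulVec_apply, maskF, sum_filter]
  rw [sum_range]
  push_cast
  congr 1
  · simp only [Pi.single_apply, Fin.ext_iff]
    split_ifs <;> simp
  · refine sum_congr rfl fun e _ => ?_
    rw [getD_eq h]
    split_ifs
    · simp [cast_inc, vecMulVec_apply]
    · simp

theorem cast_resT (h : Loopless n es) (hn : 0 < n) (F : List Bool) (w : List ℚ)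
    (e : Fin es.length) :
    ((vent w e * resT (invL n (tab n n (lapF es F w))) (es.getD e (0, 0)) : ℚ) : ℝ) =
      lev (srcF h) (tgtF h) ⟨0, hn⟩ (fun e => (vent w e : ℝ)) (maskF es.length F) e := by
  have h1 := cast_invF_of_eq (lapF es F w) _ (lap_eq h hn F w)
  rw [getD_eq h, resT, lev, ip, bv_dot]
  simp only [ent_invL_tab, bv, mulVec_sub, mulVec_single_one, Pi.sub_apply, Matrix.col_apply]
  push_cast
  rw [h1, h1, h1, h1]

theorem vent_wts {m : ℕ} (ρ : ℚ) (hist : List ℕ) (e : Fin m) :
    ((vent (wts m ρ hist) e : ℚ) : ℝ) = (ρ : ℝ) ^ hist.count (e : ℕ) := by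
  simp [wts]

/-- no marked edge has large leverage -/
theorem lev_le_of_viol (h : Loopless n es) (hn : 0 < n) {lam : ℚ} {F : List Bool} {w : List ℚ}
    (hv : ¬ viol n lam es F w < es.length) : ∀ e ∈ maskF es.length F,
      lev (srcF h) (tgtF h) ⟨0, hn⟩ (fun e => (vent w e : ℝ)) (maskF es.length F) e ≤ lam := by
  intro e he
  have h1 : viol n lam es F w = (List.range es.length).length := by
    have := viol_le n lam es F w
    rw [List.length_range]; omega
  have h2 := List.findIdx_eq_length.1 h1 e (List.mem_range.2 e.2)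
  rw [(mem_filter.1 he).2, Bool.true_and, decide_eq_false_iff_not, not_lt] at h2
  rw [← cast_resT h hn]
  exact_mod_cast h2

theorem lt_lev_of_viol (h : Loopless n es) (hn : 0 < n) {lam : ℚ} {F : List Bool} {w : List ℚ}
    (hv : viol n lam es F w < es.length) : ⟨_, hv⟩ ∈ maskF es.length F ∧ (lam : ℝ) <
      lev (srcF h) (tgtF h) ⟨0, hn⟩ (fun e => (vent w e : ℝ)) (maskF es.length F) ⟨_, hv⟩ := by
  have h0 : ∀ (m : ℕ) (p : ℕ → Bool), (List.range m).findIdx p < m →
      p ((List.range m).findIdx p) = true := by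
    intro m p hp
    have h1 : (List.range m).findIdx p < (List.range m).length := by rwa [List.length_range]
    have h2 := List.findIdx_getElem (w := h1)
    rwa [List.getElem_range] at h2
  have h2 := h0 _ _ hv
  rw [Bool.and_eq_true, decide_eq_true_eq] at h2
  refine ⟨mem_filter.2 ⟨mem_univ _, h2.1⟩, ?_⟩
  rw [← cast_resT h hn]
  exact_mod_cast h2.2

theorem length_levWM (n a : ℕ) (lam : ℚ) (es : List (ℕ × ℕ)) (F : List Bool) :
    (levWM n a lam es F).length = es.length := by simp [levWM, wts]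

/-- **(4a)** The weights are positive, at most one, and all marked edges have small leverage. -/
theorem levWM_spec (h : Loopless n es) {a : ℕ} {lam : ℚ} {τ : ℝ} (F : List Bool) (hτ : 0 < τ)
    (ha : 2 ≤ a) (hlam : 1 + 4 / (a : ℝ) ≤ lam * τ)
    (hpc : PC (srcF h) (tgtF h) τ (maskF es.length F)) :
    (∀ e : Fin es.length, 0 < (((levWM n a lam es F).getD e 0 : ℚ) : ℝ) ∧
      (((levWM n a lam es F).getD e 0 : ℚ) : ℝ) ≤ 1) ∧
    LevOk (srcF h) (tgtF h) (fun e => (((levWM n a lam es F).getD e 0 : ℚ) : ℝ))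
      (maskF es.length F) lam := by
  have ha' : (2 : ℝ) ≤ a := by exact_mod_cast ha
  have hθ : (0 : ℝ) < (a : ℝ)⁻¹ := by positivity
  have hθ' : (a : ℝ)⁻¹ ≤ 1 / 2 := by rw [one_div]; exact inv_anti₀ (by norm_num) ha'
  have hρ : (((1 - (a : ℚ)⁻¹ : ℚ)) : ℝ) = 1 - (a : ℝ)⁻¹ := by push_cast; rfl
  have hw : ∀ (hist : List ℕ) (e : Fin es.length),
      ((vent (wts es.length (1 - (a : ℚ)⁻¹) hist) e : ℚ) : ℝ) =
        (1 - (a : ℝ)⁻¹) ^ hist.count (e : ℕ) := fun hist e => by rw [vent_wts, hρ]
  have hpos : ∀ e : Fin es.length, 0 < (((levWM n a lam es F).getD e 0 : ℚ) : ℝ) ∧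
      (((levWM n a lam es F).getD e 0 : ℚ) : ℝ) ≤ 1 := by
    intro e
    have h1 := hw ((step n (1 - (a : ℚ)⁻¹) lam es F)^[nsteps n a es.length] []) e
    change 0 < ((vent _ e : ℚ) : ℝ) ∧ ((vent _ e : ℚ) : ℝ) ≤ 1
    rw [levWM, h1]
    exact ⟨pow_pos (by linarith) _, pow_le_one₀ (by linarith) (by linarith)⟩
  refine ⟨hpos, fun e₀ he₀ => ?_⟩
  have hn2 : 2 ≤ n := by
    have h1 := srcF_ne_tgtF h e₀
    have h2 := (srcF h e₀).2
    have h3 := (tgtF h e₀).2
    have h4 : (srcF h e₀ : ℕ) ≠ tgtF h e₀ := fun e => h1 (Fin.ext e)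
    omega
  have hn : 0 < n := by omega
  have hpc' := pcl_iff.2 hpc
  have key : ∀ t : ℕ, ¬ viol n lam es F (wts es.length (1 - (a : ℚ)⁻¹)
      ((step n (1 - (a : ℚ)⁻¹) lam es F)^[t] [])) < es.length ∨
      Pot (srcF h) (tgtF h) ⟨0, hn⟩ (maskF es.length F) (a : ℝ)⁻¹ lam t
        fun e => ((step n (1 - (a : ℚ)⁻¹) lam es F)^[t] []).count (e : ℕ) := by
    intro t
    induction t with
    | zero => exact Or.inr (pot_zero _ _)
    | succ t ih =>
      rw [Function.iterate_succ_apply']
      set hist := (step n (1 - (a : ℚ)⁻¹) lam es F)^[t] []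
      by_cases hv : viol n lam es F (wts es.length (1 - (a : ℚ)⁻¹) hist) < es.length
      · obtain ⟨h1, h2⟩ := lt_lev_of_viol h hn hv
        simp only [hw] at h2
        refine Or.inr ((ih.resolve_left (not_not.2 hv)).step hpc' hτ hθ (by linarith) h1 h2
          fun f _ => ?_)
        rw [step, if_pos hv, List.count_cons]
        simp only [beq_iff_eq, Fin.ext_iff]
        exact congrArg _ (if_congr eq_comm rfl rfl)
      · rw [step, if_neg hv]
        exact Or.inl hv
  rcases key (nsteps n a es.length) with hv | hP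
  · exact levOk_of_lev hpc' hτ (fun e _ => (hpos e).1) (lev_le_of_viol h hn hv) e₀ he₀
  · exfalso
    have h1 := hP.bound hpc' hτ hθ hθ' (by rwa [div_eq_mul_inv] at hlam)
    have h2 := hpc'.le_card hτ (by simpa using hn2)
    have h3 : ((maskF es.length F).card : ℝ) ≤ es.length := by
      exact_mod_cast (card_le_univ _).trans_eq (Fintype.card_fin _)
    rw [Fintype.card_fin, nsteps] at h1
    push_cast at h1
    have hn' : (0 : ℝ) < n := by exact_mod_cast hn
    have h4 : 2 * ((a : ℝ)⁻¹) ^ 2 * (es.length * (n * (n + es.length)) * (a * a)) =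
        2 * (es.length * (n * (n + es.length))) := by field_simp
    rw [h4] at h1
    have h5 : τ * (n * (n + (maskF es.length F).card)) ≤ es.length * (n * (n + es.length)) := by
      gcongr
      exact h2.trans h3
    have h6 : (0 : ℝ) < es.length * (n * (n + es.length)) := by
      have : (0 : ℝ) < es.length := hτ.trans_le (h2.trans h3)
      positivity
    linarith

theorem maskF_replicate (m : ℕ) : maskF m (List.replicate m true) = univ := by
  ext i; simp [maskF]

theorem levW_spec (h : Loopless n es) {a : ℕ} {lam : ℚ} {τ : ℝ} (hτ : 0 < τ)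
    (ha : 2 ≤ a) (hlam : 1 + 4 / (a : ℝ) ≤ lam * τ) (hpc : PC (srcF h) (tgtF h) τ univ) :
    (levW n a lam es).length = es.length ∧
    (∀ e : Fin es.length, 0 < (((levW n a lam es).getD e 0 : ℚ) : ℝ) ∧
      (((levW n a lam es).getD e 0 : ℚ) : ℝ) ≤ 1) ∧
    LevOk (srcF h) (tgtF h) (fun e => (((levW n a lam es).getD e 0 : ℚ) : ℝ)) univ lam := by
  have := levWM_spec h (List.replicate es.length true) hτ ha hlam (by rwa [maskF_replicate])
  rw [maskF_replicate] at this
  exact ⟨length_levWM _ _ _ _ _, this⟩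

end Crest.Agent.X37.Lev
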