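import Crest.Agent.X37.Inner.Res
import Crest.Agent.X37.Gr.Defs

/-!
# Row 37, leverage balancing: determinants of grounded Laplacians

`lap src tgt r w A` is the weighted Laplacian of the edge set `A`, grounded at the vertex `r`.
For weights `ρ ^ k e` on a `τ`-partition-connected edge set, its determinant is at least
`ρ ^ s` with `τ * s ≤ ∑ k e` (a spanning tree grown by Prim's rule).
-/

set_option autoImplicit false
set_option linter.unusedSectionVars false

open Matrix Finset

namespace Crest.Agent.X37.Lev

open Crest.Agent.X37.Inner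

variable {V E : Type} [Fintype V] [DecidableEq V] [DecidableEq E]

/-- Partition connectivity of the edge set `A`, partitions being given by label maps. -/
def PCL (src tgt : E → V) (τ : ℝ) (A : Finset E) : Prop :=
  ∀ f : V → V, τ * (((univ.image f).card : ℝ) - 1) ≤
    ((A.filter fun e => f (src e) ≠ f (tgt e)).card : ℝ)

theorem pcl_iff {src tgt : E → V} {τ : ℝ} {A : Finset E} : PCL src tgt τ A ↔ PC src tgt τ A := by
  simp [PCL, PC, PCOn, cross]

/-- The energy of `x` on the edge set `A`. -/
def en (src tgt : E → V) (w : E → ℝ) (A : Finset E) (x : V → ℝ) : ℝ :=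
  ∑ e ∈ A, w e * (x (src e) - x (tgt e)) ^ 2

/-- The weighted Laplacian of `A` grounded at `r`. -/
def lap (src tgt : E → V) (r : V) (w : E → ℝ) (A : Finset E) : Matrix V V ℝ :=
  vecMulVec (Pi.single r 1) (Pi.single r 1) +
    ∑ e ∈ A, w e • vecMulVec (bv (src e) (tgt e)) (bv (src e) (tgt e))

variable {src tgt : E → V} {r : V} {w : E → ℝ} {A : Finset E}

theorem en_nonneg (hw : ∀ e ∈ A, 0 ≤ w e) (x : V → ℝ) : 0 ≤ en src tgt w A x :=
  sum_nonneg fun e he => mul_nonneg (hw e he) (sq_nonneg _)

theorem qf_lap (x : V → ℝ) : qf (lap src tgt r w A) x = x r ^ 2 + en src tgt w A x := by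
  rw [lap, qf_add, qf_sum, qf_vecMulVec, en]
  simp only [qf_smul, qf_vecMulVec, bv_dot]
  simp

theorem lap_symm : (lap src tgt r w A)ᵀ = lap src tgt r w A := by
  simp [lap, transpose_sum, transpose_vecMulVec]

/-- A partition-connected edge set is connected. -/
theorem PCL.const {τ : ℝ} (h : PCL src tgt τ A) (hτ : 0 < τ) {β : Type} {x : V → β}
    (hx : ∀ e ∈ A, x (src e) = x (tgt e)) (u v : V) : x u = x v := by
  classical
  by_contra hne
  have huv : u ≠ v := fun e => hne (by rw [e])
  have h1 := h fun y => if x y = x u then u else v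
  have h2 : (A.filter fun e => (if x (src e) = x u then u else v) ≠
      (if x (tgt e) = x u then u else v)) = ∅ := by
    refine filter_eq_empty_iff.2 fun e he => ?_
    rw [hx e he]; simp
  have h3 : ({u, v} : Finset V) ⊆ univ.image fun y => if x y = x u then u else v := by
    intro y hy
    rcases mem_insert.1 hy with rfl | hy
    · exact mem_image.2 ⟨y, mem_univ _, by simp⟩
    · rw [mem_singleton.1 hy]
      exact mem_image.2 ⟨v, mem_univ _, by simp [Ne.symm hne]⟩
  have h4 := card_le_card h3
  rw [card_pair huv] at h4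
  rw [h2, card_empty] at h1
  have h5 : (2 : ℝ) ≤ ((univ.image fun y => if x y = x u then u else v).card : ℝ) := by
    exact_mod_cast h4
  push_cast at h1
  nlinarith

theorem eq_of_en_eq_zero (hw : ∀ e ∈ A, 0 < w e) {x : V → ℝ} (hx : en src tgt w A x ≤ 0) :
    ∀ e ∈ A, x (src e) = x (tgt e) := by
  intro e he
  have h0 : en src tgt w A x = 0 := le_antisymm hx (en_nonneg (fun e he => (hw e he).le) x)
  have h1 := (sum_eq_zero_iff_of_nonneg fun e he =>
    mul_nonneg (hw e he).le (sq_nonneg (x (src e) - x (tgt e)))).1 h0 e he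
  have h2 := (mul_eq_zero.1 h1).resolve_left (hw e he).ne'
  exact sub_eq_zero.1 (pow_eq_zero_iff two_ne_zero |>.1 h2)

theorem lap_posDef {τ : ℝ} (h : PCL src tgt τ A) (hτ : 0 < τ) (hw : ∀ e ∈ A, 0 < w e) :
    (lap src tgt r w A).PosDef := by
  refine posDef_of_qf lap_symm fun x hx => ?_
  rw [qf_lap]
  have h0 := en_nonneg (src := src) (tgt := tgt) (fun e he => (hw e he).le) x
  by_contra hle
  have h1 : x r ^ 2 ≤ 0 := by linarith
  have h2 : x r = 0 := by nlinarith [sq_nonneg (x r)]
  have h3 := eq_of_en_eq_zero (src := src) (tgt := tgt) hw (x := x) (by nlinarith [sq_nonneg (x r)])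
  exact hx (funext fun v => (h.const hτ h3 v r).trans h2)

/-- The matrix determinant lemma. -/
theorem det_add_smul_vecMulVec {M : Matrix V V ℝ} (hM : IsUnit M.det) (c : ℝ) (b : V → ℝ) :
    (M + c • vecMulVec b b).det = M.det * (1 + c * ip M b b) := by
  have h1 : c • vecMulVec b b = replicateCol Unit (c • b) * replicateRow Unit b := by
    rw [← vecMulVec_eq, smul_vecMulVec]
  rw [h1, det_add_replicateCol_mul_replicateRow hM]
  congr 1
  rw [det_unique]
  simp only [Matrix.add_apply, one_apply_eq, ip, Matrix.mul_apply, replicateRow_apply,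
    replicateCol_apply, dotProduct, mulVec, Pi.smul_apply, smul_eq_mul, sum_mul, mul_sum]
  congr 1
  rw [sum_comm]
  exact sum_congr rfl fun i _ => sum_congr rfl fun j _ => by ring

theorem posDef_add_smul {M : Matrix V V ℝ} (hM : M.PosDef) {c : ℝ} (hc : 0 ≤ c) (b : V → ℝ) :
    (M + c • vecMulVec b b).PosDef := by
  refine hM.add_posSemidef (PosSemidef.smul ?_ hc)
  simpa using posSemidef_vecMulVec_self_star b

/-- Adding rank-one terms keeps positivity and increases the determinant. -/
theorem det_le_det_add_sum {M : Matrix V V ℝ} (hM : M.PosDef) (B : Finset E) (b : E → V → ℝ)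
    (hw : ∀ e ∈ B, 0 ≤ w e) :
    (M + ∑ e ∈ B, w e • vecMulVec (b e) (b e)).PosDef ∧
      M.det ≤ (M + ∑ e ∈ B, w e • vecMulVec (b e) (b e)).det := by
  induction B using Finset.induction_on with
  | empty => simpa using hM
  | insert e B he ih =>
    obtain ⟨h1, h2⟩ := ih fun e he => hw e (mem_insert_of_mem he)
    have h3 := hw e (mem_insert_self _ _)
    rw [sum_insert he, add_comm (w e • _), ← add_assoc]
    refine ⟨posDef_add_smul h1 h3 _, h2.trans ?_⟩
    rw [det_add_smul_vecMulVec ((isUnit_iff_isUnit_det _).1 h1.isUnit)]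
    have h4 := mul_nonneg h3 (ip_nonneg h1 (b e))
    have h5 := h1.det_pos
    nlinarith

/-- Hanging a new vertex `v` on `u` by an edge of weight `c`. -/
theorem det_hang {M : Matrix V V ℝ} {u v : V} (huv : u ≠ v) (hr : ∀ j, M v j = 0)
    (hc : ∀ i, M i v = 0) (c : ℝ) :
    (M + c • vecMulVec (bv v u) (bv v u)).det =
      c * (M + vecMulVec (Pi.single v 1) (Pi.single v 1)).det := by
  have hE : single u v (-1 : ℝ) * M = 0 := by
    ext i j
    by_cases hi : i = u
    · subst hi; simp [hr]
    · simp [single_mul_apply_of_ne _ _ _ _ _ hi]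
  have hE' : M * single v u (-1 : ℝ) = 0 := by
    ext i j
    by_cases hj : j = u
    · subst hj; simp [hc]
    · simp [mul_single_apply_of_ne _ _ _ _ _ hj]
  have hP : transvection u v (-1 : ℝ) *ᵥ Pi.single v 1 = bv v u := by
    ext i
    simp only [transvection, add_mulVec, one_mulVec, bv, single_mulVec, Pi.add_apply, Pi.sub_apply,
      Pi.single_apply, Function.update_apply]
    by_cases hi : i = u <;> simp [hi, sub_eq_add_neg]
  have hT : (transvection u v (-1 : ℝ))ᵀ = transvection v u (-1) := by
    simp [transvection]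
  have h1 : M + c • vecMulVec (bv v u) (bv v u) = transvection u v (-1) *
      (M + c • vecMulVec (Pi.single v 1) (Pi.single v 1)) * transvection v u (-1) := by
    rw [Matrix.mul_add, Matrix.add_mul, Matrix.mul_smul, Matrix.smul_mul, mul_vecMulVec,
      vecMulVec_mul, ← hT, vecMul_transpose, hP, hT]
    congr 1
    simp [transvection, Matrix.add_mul, Matrix.mul_add, hE, hE']
  set N : Matrix V V ℝ := M + vecMulVec (Pi.single v 1) (Pi.single v 1) with hN
  have h2 : M + c • vecMulVec (Pi.single v 1) (Pi.single v 1) = updateRow N v (c • N v) := by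
    ext i j
    by_cases hi : i = v
    · subst hi; simp [hN, hr, vecMulVec_apply]
    · simp [hN, vecMulVec_apply, hi]
  rw [h1, det_mul, det_mul, det_transvection_of_ne _ _ huv, det_transvection_of_ne _ _ huv.symm,
    h2, det_updateRow_smul, updateRow_eq_self]
  ring

end Crest.Agent.X37.Lev
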