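import Crest.Agent.X37.Lev.Prim

/-!
# Row 37, leverage balancing: the potential, and small leverage implies partition connectivity
-/

set_option autoImplicit false
set_option linter.unusedSectionVars false

open Matrix Finset

namespace Crest.Agent.X37.Lev

open Crest.Agent.X37.Inner

variable {V E : Type} [Fintype V] [DecidableEq V] [DecidableEq E]
variable {src tgt : E → V} {r : V} {A : Finset E}

/-- The leverage of the edge `e`. -/
noncomputable def lev (src tgt : E → V) (r : V) (w : E → ℝ) (A : Finset E) (e : E) : ℝ :=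
  w e * ip (lap src tgt r w A) (bv (src e) (tgt e)) (bv (src e) (tgt e))

/-- Matrix-free form of "all leverages are at most `lam`". -/
def LevOk (src tgt : E → V) (w : E → ℝ) (A : Finset E) (lam : ℝ) : Prop :=
  ∀ e ∈ A, ∀ x : V → ℝ, w e * (x (src e) - x (tgt e)) ^ 2 ≤ lam * en src tgt w A x

theorem levOk_of_lev {τ lam : ℝ} {w : E → ℝ} (h : PCL src tgt τ A) (hτ : 0 < τ)
    (hw : ∀ e ∈ A, 0 < w e) (hl : ∀ e ∈ A, lev src tgt r w A e ≤ lam) :
    LevOk src tgt w A lam := by
  intro e he x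
  have h1 := dot_sq_le (lap_posDef (r := r) h hτ hw) (bv (src e) (tgt e)) fun v => x v - x r
  rw [bv_dot, qf_lap] at h1
  have h2 : en src tgt w A (fun v => x v - x r) = en src tgt w A x := by simp [en]
  rw [h2, sub_self, sub_sub_sub_cancel_right] at h1
  have h3 := en_nonneg (src := src) (tgt := tgt) (fun e he => (hw e he).le) x
  have h4 := mul_le_mul_of_nonneg_left h1 (hw e he).le
  have h5 := mul_le_mul_of_nonneg_right (hl e he) h3
  rw [lev] at h5
  nlinarith

/-- The state after `t` steps that all found a violated edge. -/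
def Pot (src tgt : E → V) (r : V) (A : Finset E) (θ lam : ℝ) (t : ℕ) (k : E → ℕ) : Prop :=
  ∑ e ∈ A, k e = t ∧ (lap src tgt r (fun e => (1 - θ) ^ k e) A).det ≤
    Real.exp (Fintype.card V * (Fintype.card V + A.card) - θ * lam * t)

theorem pot_zero (θ lam : ℝ) : Pot src tgt r A θ lam 0 fun _ => 0 := by
  refine ⟨by simp, ?_⟩
  have hb : ∀ (u v i : V), |bv u v i| ≤ 1 := by
    intro u v i
    simp only [bv, Pi.sub_apply, Pi.single_apply]
    split_ifs <;> simp
  have h1 : ∀ i j, (AbsoluteValue.abs (S := ℝ))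
      (lap src tgt r (fun _ => (1 - θ) ^ 0) A i j) ≤ (A.card + 1 : ℝ) := by
    intro i j
    simp only [AbsoluteValue.abs_apply, lap, Matrix.add_apply, Matrix.sum_apply, pow_zero, one_smul,
      vecMulVec_apply]
    refine (abs_add_le _ _).trans ?_
    have h2 : |(Pi.single r (1 : ℝ) : V → ℝ) i * (Pi.single r (1 : ℝ) : V → ℝ) j| ≤ 1 := by
      simp only [Pi.single_apply]
      split_ifs <;> simp
    have h3 : |∑ e ∈ A, bv (src e) (tgt e) i * bv (src e) (tgt e) j| ≤ A.card := by
      refine (abs_sum_le_sum_abs _ _).trans ?_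
      refine (sum_le_card_nsmul A _ 1 fun e _ => ?_).trans (by simp)
      rw [abs_mul]
      exact mul_le_one₀ (hb _ _ _) (abs_nonneg _) (hb _ _ _)
    linarith
  have h2 := det_le h1
  rw [AbsoluteValue.abs_apply, nsmul_eq_mul] at h2
  refine (le_abs_self _).trans (h2.trans ?_)
  set n := Fintype.card V
  have h3 : (n.factorial : ℝ) ≤ Real.exp n ^ n := by
    have h4 : (n.factorial : ℝ) ≤ (n : ℝ) ^ n := by exact_mod_cast Nat.factorial_le_pow n
    refine h4.trans (pow_le_pow_left₀ (Nat.cast_nonneg n) ?_ n)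
    linarith [Real.add_one_le_exp (n : ℝ)]
  have h4 : (A.card + 1 : ℝ) ^ n ≤ Real.exp A.card ^ n :=
    pow_le_pow_left₀ (by positivity) (Real.add_one_le_exp _) n
  calc (n.factorial : ℝ) * (A.card + 1 : ℝ) ^ n ≤ Real.exp n ^ n * Real.exp A.card ^ n := by gcongr
    _ = _ := by
      rw [← mul_pow, ← Real.exp_add, ← Real.exp_nat_mul]; simp

theorem Pot.step {τ θ lam : ℝ} {t : ℕ} {k k' : E → ℕ} (h : PCL src tgt τ A) (hτ : 0 < τ)
    (hθ : 0 < θ) (hθ' : θ < 1) (hP : Pot src tgt r A θ lam t k) {e : E} (he : e ∈ A)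
    (hl : lam < lev src tgt r (fun e => (1 - θ) ^ k e) A e)
    (hk : ∀ f ∈ A, k' f = k f + if f = e then 1 else 0) : Pot src tgt r A θ lam (t + 1) k' := by
  have hρ : 0 < 1 - θ := by linarith
  refine ⟨?_, ?_⟩
  · rw [sum_congr rfl hk, sum_add_distrib, hP.1, sum_ite_eq' A e, if_pos he]
  · have hpd := lap_posDef (r := r) (w := fun e => (1 - θ) ^ k e) h hτ fun e _ => by positivity
    have h1 : lap src tgt r (fun e => (1 - θ) ^ k' e) A =
        lap src tgt r (fun e => (1 - θ) ^ k e) A +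
          (-(θ * (1 - θ) ^ k e)) • vecMulVec (bv (src e) (tgt e)) (bv (src e) (tgt e)) := by
      rw [lap, lap, add_assoc, ← add_sum_erase A _ he, ← add_sum_erase A _ he, hk e he, if_pos rfl]
      congr 1
      rw [add_right_comm, ← add_smul]
      congr 1
      · congr 1; ring
      · refine sum_congr rfl fun f hf => ?_
        rw [hk f (mem_of_mem_erase hf), if_neg (ne_of_mem_erase hf), add_zero]
    rw [h1, det_add_smul_vecMulVec ((isUnit_iff_isUnit_det _).1 hpd.isUnit)]
    have h2 := Real.add_one_le_exp (-(θ * lam))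
    have h3 : 1 + -(θ * (1 - θ) ^ k e) * ip (lap src tgt r (fun e => (1 - θ) ^ k e) A)
        (bv (src e) (tgt e)) (bv (src e) (tgt e)) ≤ Real.exp (-(θ * lam)) := by
      rw [lev] at hl
      nlinarith [mul_lt_mul_of_pos_left hl hθ]
    refine (mul_le_mul_of_nonneg_left h3 hpd.det_pos.le).trans ?_
    refine (mul_le_mul_of_nonneg_right hP.2 (Real.exp_pos _).le).trans ?_
    rw [← Real.exp_add]
    push_cast
    exact le_of_eq (by congr 1; ring)

theorem Pot.bound {τ θ lam : ℝ} {t : ℕ} {k : E → ℕ} (h : PCL src tgt τ A) (hτ : 0 < τ)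
    (hθ : 0 < θ) (hθ' : θ ≤ 1 / 2) (hlam : 1 + 4 * θ ≤ lam * τ) (hP : Pot src tgt r A θ lam t k) :
    2 * θ ^ 2 * t ≤ τ * (Fintype.card V * (Fintype.card V + A.card)) := by
  have hρ : 0 < 1 - θ := by linarith
  obtain ⟨s, hs1, hs2⟩ := det_lap_ge (r := r) h hτ k hρ
  rw [hP.1] at hs1
  have h1 : Real.exp (-(θ * (1 + 2 * θ))) ≤ 1 - θ := by
    rw [Real.exp_neg, inv_le_iff_one_le_mul₀ (Real.exp_pos _)]
    have h2 := Real.add_one_le_exp (θ * (1 + 2 * θ))
    have h3 : 1 ≤ (1 - θ) * (θ * (1 + 2 * θ) + 1) := by nlinarith [sq_nonneg θ]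
    nlinarith
  have h2 := ((pow_le_pow_left₀ (Real.exp_pos _).le h1 s).trans hs2).trans hP.2
  rw [← Real.exp_nat_mul, Real.exp_le_exp] at h2
  set N : ℝ := Fintype.card V * (Fintype.card V + A.card)
  have h3 := mul_le_mul_of_nonneg_left h2 hτ.le
  have ht : (0 : ℝ) ≤ t := Nat.cast_nonneg t
  have h4 := mul_le_mul_of_nonneg_right hs1 (show 0 ≤ θ * (1 + 2 * θ) by positivity)
  have h5 := mul_le_mul_of_nonneg_right hlam (show 0 ≤ θ * t by positivity)
  nlinarith

theorem PCL.le_card {τ : ℝ} (h : PCL src tgt τ A) (hτ : 0 < τ) (hV : 2 ≤ Fintype.card V) :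
    τ ≤ A.card := by
  have h1 := h id
  rw [image_id, card_univ] at h1
  have h2 : ((A.filter fun e => id (src e) ≠ id (tgt e)).card : ℝ) ≤ A.card := by
    exact_mod_cast card_filter_le _ _
  have h3 : (2 : ℝ) ≤ Fintype.card V := by exact_mod_cast hV
  nlinarith

/-! ### Small leverage implies partition connectivity -/

/-- Counting by the trace. -/
theorem card_le_of_lev {I : Type} [Fintype I] [DecidableEq I] {B : Finset E} {w : E → ℝ}
    {c : E → I → ℝ} {lam : ℝ} (hlam : 0 ≤ lam)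
    (hpos : ∀ y : I → ℝ, y ≠ 0 → 0 < ∑ e ∈ B, w e * (c e ⬝ᵥ y) ^ 2)
    (hl : ∀ e ∈ B, ∀ y : I → ℝ, w e * (c e ⬝ᵥ y) ^ 2 ≤ lam * ∑ f ∈ B, w f * (c f ⬝ᵥ y) ^ 2) :
    (Fintype.card I : ℝ) ≤ lam * B.card := by
  set N : Matrix I I ℝ := ∑ e ∈ B, w e • vecMulVec (c e) (c e) with hN
  have hq : ∀ y, qf N y = ∑ e ∈ B, w e * (c e ⬝ᵥ y) ^ 2 := by
    intro y
    rw [hN, qf_sum]
    simp only [qf_smul, qf_vecMulVec]
  have hpd : N.PosDef := by
    refine posDef_of_qf ?_ fun y hy => by rw [hq]; exact hpos y hy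
    simp [hN, transpose_sum, transpose_vecMulVec]
  have h1 : (Fintype.card I : ℝ) = ∑ e ∈ B, w e * ip N (c e) (c e) := by
    have h2 : trace (N⁻¹ * N) = Fintype.card I := by
      rw [nonsing_inv_mul _ ((isUnit_iff_isUnit_det _).1 hpd.isUnit), trace_one]
    rw [← h2]
    conv_lhs => enter [1, 2]; rw [hN]
    rw [Matrix.mul_sum, trace_sum]
    refine sum_congr rfl fun e _ => ?_
    rw [Matrix.mul_smul, trace_smul, mul_vecMulVec, trace_vecMulVec, smul_eq_mul, ip,
      dotProduct_comm]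
  rw [h1]
  refine (sum_le_card_nsmul B _ lam fun e he => ?_).trans (by rw [nsmul_eq_mul, mul_comm])
  have h2 := hl e he (N⁻¹ *ᵥ c e)
  rw [← hq, qf_inv_mulVec hpd] at h2
  change w e * ip N (c e) (c e) ^ 2 ≤ _ at h2
  rcases (ip_nonneg hpd (c e)).eq_or_lt with h0 | h0
  · rw [← h0, mul_zero]; exact hlam
  · nlinarith

/-- A connected edge set with leverages at most `lam` is `1 / lam`-partition-connected. -/
theorem pcl_of_levOk {w : E → ℝ} {lam : ℝ} (hlam : 0 < lam)
    (hconn : ∀ x : V → ℝ, en src tgt w A x ≤ 0 → ∀ u v, x u = x v)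
    (hl : LevOk src tgt w A lam) : PCL src tgt (1 / lam) A := by
  classical
  intro f
  rcases isEmpty_or_nonempty V with hV | ⟨⟨r⟩⟩
  · have : (0 : ℝ) ≤ ((A.filter fun e => f (src e) ≠ f (tgt e)).card : ℝ) := Nat.cast_nonneg _
    have h2 : 0 < 1 / lam := by positivity
    simp only [univ_eq_empty, image_empty, card_empty, Nat.cast_zero]
    linarith
  set J : Finset V := (univ.image f).erase (f r) with hJ
  set B : Finset E := A.filter fun e => f (src e) ≠ f (tgt e) with hB
  let ind : V → J → ℝ := fun v i => if (i : V) = f v then 1 else 0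
  let c : E → J → ℝ := fun e => ind (src e) - ind (tgt e)
  have hc : ∀ (y : J → ℝ) (e : E), c e ⬝ᵥ y = ind (src e) ⬝ᵥ y - ind (tgt e) ⬝ᵥ y :=
    fun y e => sub_dotProduct _ _ _
  have hen : ∀ y : J → ℝ, en src tgt w A (fun v => ind v ⬝ᵥ y) = ∑ e ∈ B, w e * (c e ⬝ᵥ y) ^ 2 := by
    intro y
    rw [en, hB, sum_filter]
    refine sum_congr rfl fun e _ => ?_
    split_ifs with h
    · rw [hc]
    · have h' : f (src e) = f (tgt e) := not_not.1 h
      simp [ind, h']
  have h1 := card_le_of_lev (B := B) (w := w) (c := c) hlam.le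
    (fun y hy => ?_) fun e he y => ?_
  · rw [Fintype.card_coe, hJ, card_erase_of_mem (mem_image_of_mem f (mem_univ r)),
      Nat.cast_sub (card_pos.2 ⟨f r, mem_image_of_mem f (mem_univ r)⟩), Nat.cast_one] at h1
    rw [div_mul_eq_mul_div, one_mul, div_le_iff₀ hlam]
    linarith
  · rw [← hen]
    by_contra hle
    refine hy (funext fun i => ?_)
    obtain ⟨hi1, hi2⟩ := mem_erase.1 i.2
    obtain ⟨v, _, hv⟩ := mem_image.1 hi2
    have h2 := hconn _ (not_lt.1 hle) v r
    have h3 : ind v = Pi.single i 1 := by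
      funext j
      simp only [ind, hv, Pi.single_apply, Subtype.ext_iff]
    have h4 : ind r = 0 := by
      funext j
      simp [ind, (mem_erase.1 j.2).1]
    simpa [h3, h4] using h2
  · rw [← hen, hc]
    exact hl e (mem_filter.1 he).1 fun v => ind v ⬝ᵥ y

/-- **(4b)** A subset that keeps the fraction `c` of the energy of a connected edge set with
leverages at most `lam` is `c / lam`-partition-connected. -/
theorem pc_of_energy {H : Finset E} {w : E → ℝ} {τ lam c : ℝ} (h : PC src tgt τ A) (hτ : 0 < τ)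
    (hw : ∀ e ∈ A, 0 < w e) (hlam : 0 < lam) (hc : 0 < c) (hl : LevOk src tgt w A lam)
    (hH : H ⊆ A) (hE : ∀ x : V → ℝ, c * en src tgt w A x ≤ en src tgt w H x) :
    PC src tgt (c / lam) H := by
  have h1 := pcl_of_levOk (src := src) (tgt := tgt) (A := H) (w := w) (lam := lam / c)
    (by positivity) (fun x hx => ?_) fun e he x => ?_
  · rw [one_div_div] at h1
    exact pcl_iff.1 h1
  · have h2 : en src tgt w A x ≤ 0 := by
      by_contra h3
      have := mul_pos hc (not_le.1 h3)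
      linarith [hE x]
    exact (pcl_iff.2 h).const hτ (eq_of_en_eq_zero hw h2)
  · refine (hl e (hH he) x).trans ?_
    have h2 := mul_le_mul_of_nonneg_left (hE x) (show 0 ≤ lam / c by positivity)
    rwa [← mul_assoc, div_mul_cancel₀ _ hc.ne'] at h2

end Crest.Agent.X37.Lev
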