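import Crest.Agent.X37.Lev.Math

/-!
# Row 37, leverage balancing: the lower bound for the determinant and the step count
-/

set_option autoImplicit false
set_option linter.unusedSectionVars false

open Matrix Finset

namespace Crest.Agent.X37.Lev

open Crest.Agent.X37.Inner

variable {V E : Type} [Fintype V] [DecidableEq V] [DecidableEq E]
variable {src tgt : E → V} {r : V} {A : Finset E}

/-- The state of Prim's rule: a tree `T` on the vertex set `S`. -/
structure PrimInv (src tgt : E → V) (r : V) (A : Finset E) (k : E → ℕ) (w : E → ℝ)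
    (S : Finset V) (T : Finset E) : Prop where
  root : r ∈ S
  sub : T ⊆ A
  ends : ∀ e ∈ T, src e ∈ S ∧ tgt e ∈ S
  det : (lap src tgt r w T + ∑ x ∈ Sᶜ, vecMulVec (Pi.single x (1 : ℝ)) (Pi.single x 1)).det =
    ∏ e ∈ T, w e
  lab : ∀ j : ℕ, ∃ f : V → V, (∀ x, f x ∈ S) ∧ (∀ x, ∃ y ∈ S, f y = f x) ∧
    (∀ e ∈ A, k e ≤ j → f (src e) = f (tgt e)) ∧
    (univ.image f).card = 1 + (T.filter fun e => j < k e).card

theorem primInv_start (k : E → ℕ) (w : E → ℝ) : PrimInv src tgt r A k w {r} ∅ where
  root := mem_singleton_self r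
  sub := empty_subset _
  ends := fun _ h => absurd h (notMem_empty _)
  det := by
    have : lap src tgt r w ∅ + ∑ x ∈ ({r} : Finset V)ᶜ,
        vecMulVec (Pi.single x (1 : ℝ)) (Pi.single x 1) = 1 := by
      rw [lap, sum_empty, add_zero, ← sum_singleton
        (fun x => vecMulVec (Pi.single x (1 : ℝ)) (Pi.single x (1 : ℝ))) r, sum_add_sum_compl]
      ext i j
      simp [Matrix.sum_apply, vecMulVec_apply, Pi.single_apply, one_apply]
    rw [this, det_one, prod_empty]
  lab := fun j => ⟨fun _ => r, fun _ => mem_singleton_self r,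
    fun _ => ⟨r, mem_singleton_self r, rfl⟩, fun _ _ _ => rfl, by
      rw [image_const ⟨r, mem_univ r⟩]; simp⟩

theorem PrimInv.step {k : E → ℕ} {w : E → ℝ} {S : Finset V} {T : Finset E}
    (h : PrimInv src tgt r A k w S T) {e : E} {u v : V} (he : e ∈ A) (hu : u ∈ S) (hv : v ∉ S)
    (huv : (src e = u ∧ tgt e = v) ∨ (src e = v ∧ tgt e = u))
    (hmin : ∀ e' ∈ A, ¬ (src e' ∈ S ↔ tgt e' ∈ S) → k e ≤ k e') :
    PrimInv src tgt r A k w (insert v S) (insert e T) := by
  have heT : e ∉ T := fun hT => by
    obtain ⟨h1, h2⟩ := h.ends e hT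
    rcases huv with ⟨_, h3⟩ | ⟨h3, _⟩
    · exact hv (h3 ▸ h2)
    · exact hv (h3 ▸ h1)
  have hne : u ≠ v := fun e => hv (e ▸ hu)
  refine ⟨mem_insert_of_mem h.root, insert_subset he h.sub, ?_, ?_, fun j => ?_⟩
  · intro e' he'
    rcases mem_insert.1 he' with rfl | he'
    · rcases huv with ⟨h1, h2⟩ | ⟨h1, h2⟩ <;> simp [h1, h2, hu]
    · exact ⟨mem_insert_of_mem (h.ends e' he').1, mem_insert_of_mem (h.ends e' he').2⟩
  · set M : Matrix V V ℝ := lap src tgt r w T +
      ∑ x ∈ (insert v S)ᶜ, vecMulVec (Pi.single x (1 : ℝ)) (Pi.single x 1) with hM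
    have hrv : v ≠ r := fun e => hv (e ▸ h.root)
    have hb : ∀ e' ∈ T, bv (src e') (tgt e') v = 0 := by
      intro e' he'
      have h1 : v ≠ src e' := fun e => hv (e ▸ (h.ends e' he').1)
      have h2 : v ≠ tgt e' := fun e => hv (e ▸ (h.ends e' he').2)
      simp [bv, h1, h2]
    have hx : ∀ x ∈ (insert v S)ᶜ, (Pi.single x (1 : ℝ) : V → ℝ) v = 0 := by
      intro x hx
      have : v ≠ x := fun e => (mem_compl.1 hx) (e ▸ mem_insert_self _ _)
      simp [this]
    have hr : ∀ j, M v j = 0 := by
      intro j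
      simp only [hM, lap, Matrix.add_apply, Matrix.sum_apply, Matrix.smul_apply, vecMulVec_apply]
      rw [sum_eq_zero fun e' he' => by rw [hb e' he']; simp,
        sum_eq_zero fun x hx' => by rw [hx x hx']; simp]
      simp [hrv]
    have hc : ∀ i, M i v = 0 := by
      intro i
      simp only [hM, lap, Matrix.add_apply, Matrix.sum_apply, Matrix.smul_apply, vecMulVec_apply]
      rw [sum_eq_zero fun e' he' => by rw [hb e' he']; simp,
        sum_eq_zero fun x hx' => by rw [hx x hx']; simp]
      simp [hrv]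
    have hbe : vecMulVec (bv (src e) (tgt e)) (bv (src e) (tgt e)) =
        vecMulVec (bv v u) (bv v u) := by
      rcases huv with ⟨h1, h2⟩ | ⟨h1, h2⟩
      · rw [h1, h2]; ext i j; simp only [vecMulVec_apply, bv, Pi.sub_apply]; ring
      · rw [h1, h2]
    have h1 : lap src tgt r w (insert e T) +
        ∑ x ∈ (insert v S)ᶜ, vecMulVec (Pi.single x (1 : ℝ)) (Pi.single x 1) =
        M + w e • vecMulVec (bv v u) (bv v u) := by
      rw [hM, lap, lap, sum_insert heT, hbe]; abel
    have h2 : Sᶜ = insert v (insert v S)ᶜ := by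
      ext x
      by_cases hx : x = v
      · subst hx; simp [hv]
      · simp [hx]
    have h3 : M + vecMulVec (Pi.single v 1) (Pi.single v 1) = lap src tgt r w T +
        ∑ x ∈ Sᶜ, vecMulVec (Pi.single x (1 : ℝ)) (Pi.single x 1) := by
      rw [h2, sum_insert (by simp), hM]; abel
    rw [h1, det_hang hne hr hc, h3, h.det, prod_insert heT]
  · obtain ⟨f, hf1, hf2, hf3, hf4⟩ := h.lab j
    by_cases hj : j < k e
    · refine ⟨fun x => if x ∈ S then f x else v, fun x => ?_, fun x => ?_, fun e' he' hk => ?_, ?_⟩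
      · by_cases hx : x ∈ S <;> simp [hx, hf1]
      · by_cases hx : x ∈ S
        · exact ⟨x, mem_insert_of_mem hx, rfl⟩
        · exact ⟨v, mem_insert_self _ _, by simp [hx, hv]⟩
      · have hiff : src e' ∈ S ↔ tgt e' ∈ S := by
          by_contra hn
          have := hmin e' he' hn
          omega
        by_cases hx : src e' ∈ S
        · simp [hx, hiff.1 hx, hf3 e' he' hk]
        · simp [hx, mt hiff.2 hx]
      · have h1 : (univ.image fun x => if x ∈ S then f x else v) = insert v (univ.image f) := by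
          ext y
          simp only [mem_image, mem_univ, true_and, mem_insert]
          constructor
          · rintro ⟨x, rfl⟩
            by_cases hx : x ∈ S
            · exact Or.inr ⟨x, by simp [hx]⟩
            · exact Or.inl (by simp [hx])
          · rintro (rfl | ⟨x, rfl⟩)
            · exact ⟨y, by simp [hv]⟩
            · obtain ⟨y, hy, hy'⟩ := hf2 x
              exact ⟨y, by simp [hy, hy']⟩
        have h2 : v ∉ univ.image f := by
          intro hm
          obtain ⟨x, _, hx⟩ := mem_image.1 hm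
          exact hv (hx ▸ hf1 x)
        rw [h1, card_insert_of_notMem h2, hf4, filter_insert, if_pos hj,
          card_insert_of_notMem fun hm => heT (mem_filter.1 hm).1]
        omega
    · refine ⟨f, fun x => mem_insert_of_mem (hf1 x), fun x => ?_, hf3, ?_⟩
      · obtain ⟨y, hy, hy'⟩ := hf2 x
        exact ⟨y, mem_insert_of_mem hy, hy'⟩
      · rw [hf4, filter_insert, if_neg hj]

theorem exists_primInv {τ : ℝ} (h : PCL src tgt τ A) (hτ : 0 < τ) (k : E → ℕ) (w : E → ℝ) :
    ∃ T, PrimInv src tgt r A k w univ T := by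
  have key : ∀ d : ℕ, ∀ (S : Finset V) (T : Finset E), Sᶜ.card = d →
      PrimInv src tgt r A k w S T → ∃ T, PrimInv src tgt r A k w univ T := by
    intro d
    induction d with
    | zero =>
      intro S T hd hS
      have : S = univ := by rwa [card_eq_zero, compl_eq_empty_iff] at hd
      exact ⟨T, this ▸ hS⟩
    | succ d ih =>
      intro S T hd hS
      obtain ⟨v₀, hv₀⟩ : Sᶜ.Nonempty := card_pos.1 (by omega)
      have hne : (A.filter fun e => ¬ (src e ∈ S ↔ tgt e ∈ S)).Nonempty := by
        by_contra hn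
        have h1 := h.const hτ (x := fun v => v ∈ S) (fun e he => by
          by_contra hc
          exact hn ⟨e, mem_filter.2 ⟨he, fun hi => hc (propext hi)⟩⟩) r v₀
        exact (mem_compl.1 hv₀) (h1 ▸ hS.root)
      obtain ⟨e, he, hmin⟩ := exists_min_image _ k hne
      obtain ⟨heA, hcr⟩ := mem_filter.1 he
      have hmin' : ∀ e' ∈ A, ¬ (src e' ∈ S ↔ tgt e' ∈ S) → k e ≤ k e' :=
        fun e' h1 h2 => hmin e' (mem_filter.2 ⟨h1, h2⟩)
      have hcard : ∀ v, v ∉ S → (insert v S)ᶜ.card = d := by
        intro v hv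
        rw [compl_insert, card_erase_of_mem (mem_compl.2 hv), hd]; rfl
      by_cases hs : src e ∈ S
      · have ht : tgt e ∉ S := fun ht => hcr ⟨fun _ => ht, fun _ => hs⟩
        exact ih _ _ (hcard _ ht) (hS.step heA hs ht (Or.inl ⟨rfl, rfl⟩) hmin')
      · have ht : tgt e ∈ S := by
          by_contra ht
          exact hcr ⟨fun h => absurd h hs, fun h => absurd h ht⟩
        exact ih _ _ (hcard _ hs) (hS.step heA ht hs (Or.inr ⟨rfl, rfl⟩) hmin')
  exact key _ _ _ rfl (primInv_start k w)

theorem sum_eq_sum_card (k : E → ℕ) (B : Finset E) {K : ℕ} (hK : ∀ e ∈ B, k e ≤ K) :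
    ∑ e ∈ B, k e = ∑ j ∈ range K, (B.filter fun e => j < k e).card := by
  simp only [card_filter]
  rw [sum_comm]
  refine sum_congr rfl fun e he => ?_
  rw [← card_filter]
  have : (range K).filter (fun j => j < k e) = range (k e) := by
    ext j
    have := hK e he
    simp only [mem_filter, mem_range]
    omega
  rw [this, card_range]

/-- **Lower bound for the determinant.** -/
theorem det_lap_ge {τ : ℝ} (h : PCL src tgt τ A) (hτ : 0 < τ) (k : E → ℕ) {ρ : ℝ} (hρ : 0 < ρ) :
    ∃ s : ℕ, τ * s ≤ (∑ e ∈ A, k e : ℕ) ∧ ρ ^ s ≤ (lap src tgt r (fun e => ρ ^ k e) A).det := by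
  obtain ⟨T, hT⟩ := exists_primInv (r := r) h hτ k fun e => ρ ^ k e
  refine ⟨∑ e ∈ T, k e, ?_, ?_⟩
  · have hK : ∀ e ∈ A, k e ≤ A.sup k := fun e he => le_sup he
    rw [sum_eq_sum_card k A hK, sum_eq_sum_card k T fun e he => hK e (hT.sub he)]
    push_cast
    rw [mul_sum]
    refine sum_le_sum fun j _ => ?_
    obtain ⟨f, _, _, hf3, hf4⟩ := hT.lab j
    have h1 := h f
    rw [hf4] at h1
    push_cast at h1
    have h2 : (A.filter fun e => f (src e) ≠ f (tgt e)).card ≤
        (A.filter fun e => j < k e).card := by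
      refine card_le_card fun e he => ?_
      obtain ⟨h3, h4⟩ := mem_filter.1 he
      exact mem_filter.2 ⟨h3, lt_of_not_ge fun h5 => h4 (hf3 e h3 h5)⟩
    have h3 : ((A.filter fun e => f (src e) ≠ f (tgt e)).card : ℝ) ≤
        (A.filter fun e => j < k e).card := by exact_mod_cast h2
    linarith
  · have h1 := hT.det
    rw [compl_univ, sum_empty, add_zero, prod_pow_eq_pow_sum] at h1
    have hpos : 0 < (lap src tgt r (fun e => ρ ^ k e) T).det := by rw [h1]; positivity
    have hpd : (lap src tgt r (fun e => ρ ^ k e) T).PosDef := by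
      have hpsd : (lap src tgt r (fun e => ρ ^ k e) T).PosSemidef := by
        refine PosSemidef.of_dotProduct_mulVec_nonneg ?_ fun x => ?_
        · rw [IsHermitian, conjTranspose_eq_transpose_of_trivial, lap_symm]
        · have h2 := qf_lap (src := src) (tgt := tgt) (r := r) (w := fun e => ρ ^ k e) (A := T) x
          have h3 := en_nonneg (src := src) (tgt := tgt) (w := fun e => ρ ^ k e) (A := T)
            (fun e _ => by positivity) x
          have h4 : 0 ≤ qf (lap src tgt r (fun e => ρ ^ k e) T) x := by rw [h2]; positivity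
          simpa [qf] using h4
      exact hpsd.posDef_iff_isUnit.2 ((isUnit_iff_isUnit_det _).2 hpos.ne'.isUnit)
    have h2 := (det_le_det_add_sum (w := fun e => ρ ^ k e) hpd (A \ T)
      (fun e => bv (src e) (tgt e)) fun e _ => by positivity).2
    rw [h1, lap, add_assoc, add_comm (∑ e ∈ T, _), sum_sdiff hT.sub] at h2
    exact h2

end Crest.Agent.X37.Lev
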